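import Crest.Agent.R152.Iface
import Crest.Agent.R152.LA
import Crest.Agent.R152.SLBohr

/-! Row 152, block H (structure lemma), notes152/H33.md section 2. -/

set_option autoImplicit false
open Matrix Filter

namespace Crest.Agent.R152

namespace SL
open Module
open scoped InnerProductSpace

variable {n : ℕ}

theorem exists_lift : ∃ s : (Fin n → T1) → En n,
    ∀ (z : Zn n) (u : Fin n → T1), R152.pr z u = ((⟪cz z, s u⟫_ℝ : ℝ) : T1) := by
  have h : ∀ a : T1, ∃ x : ℝ, (x : T1) = a := fun a => QuotientAddGroup.mk_surjective a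
  choose r hr using h
  refine ⟨fun u => WithLp.toLp 2 fun i => r (u i), fun z u => ?_⟩
  have : ⟪cz z, WithLp.toLp 2 fun i => r (u i)⟫_ℝ = ∑ i, z i • r (u i) := by
    simp [PiLp.inner_apply, mul_comm]
  rw [this, QuotientAddGroup.mk_sum]
  exact Finset.sum_congr rfl fun i _ => by rw [AddCircle.coe_zsmul, hr]

theorem norm_sv_sq (x : Fin n → Bool) : ‖cz (sv x)‖ ^ 2 = n := by
  rw [EuclideanSpace.real_norm_sq_eq]
  have : ∀ i, (cz (sv x)) i ^ 2 = 1 := fun i => by
    simp only [cz_apply, sv, sg]; split_ifs <;> simp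
  simp only [this]; simp

theorem norm_sv (x : Fin n → Bool) : ‖cz (sv x)‖ = √n := by
  rw [← norm_sv_sq x, Real.sqrt_sq (norm_nonneg _)]

theorem norm_good {t : ℕ} {Z : Fin t → Zn n} (h : GoodZ Z) (k : Fin t) : ‖cz (Z k)‖ ^ 2 ≤ n := by
  rw [EuclideanSpace.real_norm_sq_eq]
  refine (Finset.sum_le_card_nsmul _ _ 1 fun i _ => ?_).trans (by simp)
  have : |(Z k i : ℝ)| ≤ 1 := by exact_mod_cast h.1 k i
  exact (sq_le_one_iff_abs_le_one _).2 this

theorem core (hW : StWRM) (hn : 1 ≤ n) {g l q : ℝ} (hg : 0 ≤ g) (hl : 0 < l) (hq : 0 ≤ q)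
    {k0 m0 t qd Q : ℕ} (hQ : 0 < Q) (hk0 : q ≤ l * k0) (hm0 : g * n + 2 * l * n < m0 * q)
    (hqd : g * n ≤ l * qd) :
    ∃ F : Finset (Fin t → Zn n), F.card ≤ 3 ^ (n * m0) ∧ (∀ Z ∈ F, GoodZ Z) ∧
      ∀ G : AddSubgroup (Fin n → T1), Finite G →
        Real.exp (13 * √n * √n / Real.exp g) *
          (Real.exp (13 * (2 ^ (k0 ^ 2) * Real.exp q) * √n / Real.exp (-l)) ^ k0 *
            Real.exp (13 * (2 * √n) * √k0 / Real.exp (-l))) * 2 ^ t ≤
          ((ann (G : Set (Fin n → T1))).ncard : ℝ) →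
        ∃ Z ∈ F, ∃ G1 : Finset (Fin n → T1), (∀ u ∈ G1, u ∈ G) ∧
          (Nat.card G : ℝ) ≤ Real.exp (2 * g * n) * n ^ qd * Q ^ qd * G1.card ∧
          ∀ u ∈ G1, ∀ u' ∈ G1, ∀ k, ‖R152.pr (Z k) (u - u')‖ ≤ qd / Q := by
  classical
  choose A Z0 hZ0 hZU hZX using stage1 (n := n)
  let U : (Fin m0 → Fin n → SignType) → Submodule ℤ (Zn n) :=
    fun σ => cl l (Set.range fun i => fun j => 2 * ((σ i j : SignType) : ℤ))
  let Zf : (Fin m0 → Fin n → SignType) → Fin t → Zn n := fun σ =>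
    if h : t ≤ A (rsp (U σ)) then fun k => Z0 _ (Fin.castLE h k) else 0
  refine ⟨(Finset.univ.filter fun σ => t ≤ A (rsp (U σ))).image Zf, ?_, fun Z hZ => ?_,
    fun G hG hbig => ?_⟩
  · refine Finset.card_image_le.trans ((Finset.card_filter_le _ _).trans (le_of_eq ?_))
    have : Fintype.card SignType = 3 := by decide
    simp [this, pow_mul]
  · obtain ⟨σ, hσ, rfl⟩ := Finset.mem_image.1 hZ
    have h := (Finset.mem_filter.1 hσ).2
    simp only [Zf, dif_pos h]
    exact goodZ_castLE (hZ0 _) h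
  set NA := Real.exp (13 * √n * √n / Real.exp g)
  set NB := Real.exp (13 * (2 ^ (k0 ^ 2) * Real.exp q) * √n / Real.exp (-l)) ^ k0 *
            Real.exp (13 * (2 * √n) * √k0 / Real.exp (-l))
  have hNA : 0 < NA := Real.exp_pos _
  have hNB : 0 < NB := by positivity
  let Λ : Submodule ℤ (Zn n) :=
    { carrier := {y | ∀ u ∈ G, R152.pr y u = 0}
      zero_mem' := fun u _ => by simp [R152.pr]
      add_mem' := fun {a b} ha hb u hu => by rw [pr_add_left, ha u hu, hb u hu, add_zero]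
      smul_mem' := fun c y hy u hu => by
        have : R152.pr (c • y) u = c • R152.pr y u := by
          simp [R152.pr, Finset.smul_sum, smul_smul]
        rw [this, hy u hu, smul_zero] }
  let X : Finset (Fin n → Bool) := (ann (G : Set (Fin n → T1))).toFinset
  have hXc : (ann (G : Set (Fin n → T1))).ncard = X.card := Set.ncard_eq_toFinset_card' _
  rw [hXc] at hbig
  have hXΛ : ∀ x ∈ X, sv x ∈ Λ := fun x hx u hu => Set.mem_toFinset.1 hx u hu
  have hXne : X.Nonempty := by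
    rw [← Finset.card_pos]
    have : (0 : ℝ) < X.card := lt_of_lt_of_le (by positivity) hbig
    exact_mod_cast this
  obtain ⟨W, hWΛ, hHW, hcnt⟩ := partA hW Λ hg (Real.sqrt_nonneg n)
  obtain ⟨x0, hx0, hX1⟩ := exists_fiber X hXne (fun x => pr (rsp W) (cz (sv x))) (N := NA)
    (hcnt _ fun y hy => by
      obtain ⟨x, hx, rfl⟩ := Finset.mem_image.1 hy
      exact ⟨(norm_pr_le _ _).trans (norm_sv x).le, _, hXΛ x hx, rfl⟩)
  set X1 := X.filter fun x => pr (rsp W) (cz (sv x)) = pr (rsp W) (cz (sv x0))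
  have hx01 : x0 ∈ X1 := Finset.mem_filter.2 ⟨hx0, rfl⟩
  obtain ⟨hW1, hW2, hW3⟩ := H_sat W
  set W' := sr (rsp W)
  have hHW' : Real.log (H W') / 2 ≤ g * n := by
    have := Real.log_le_log (H_pos _) hW3
    linarith
  let D : Finset (Zn n) := X1.image fun x => sv x - sv x0
  have hDW : (D : Set (Zn n)) ⊆ W' := fun z hz => by
    obtain ⟨x, hx, rfl⟩ := Finset.mem_image.1 hz
    have := pr_eq_iff.1 (Finset.mem_filter.1 hx).2
    rw [← map_sub] at this
    exact this
  obtain ⟨S, hS, hgr⟩ := greedy (l := 2 * l) (q := q) (by positivity) (D : Set (Zn n))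
    (Finset.mem_image.2 ⟨x0, hx01, sub_self _⟩) m0
  have hSW : Set.range S ⊆ W' := by rintro _ ⟨i, rfl⟩; exact hDW (hS i)
  have hgood := hgr.resolve_left (by
    have h1 := cl_min (2 * l) (Set.range S) (sat_sr _) hSW
    have h2 : (rk W' : ℝ) ≤ n := by exact_mod_cast rk_le W'
    have h3 : Phi (2 * l) W' ≤ g * n + 2 * l * n := by
      unfold Phi
      have := mul_le_mul_of_nonneg_left h2 (by positivity : 0 ≤ 2 * l)
      linarith
    intro h; linarith)
  have hσ : ∀ i, ∃ σ : Fin n → SignType, (fun j => 2 * ((σ j : SignType) : ℤ)) = S i := fun i => by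
    obtain ⟨x, -, hx⟩ := Finset.mem_image.1 (hS i)
    exact ⟨hd x x0, by funext j; rw [← hx, ← two_hd]; rfl⟩
  choose σ hσ using hσ
  have hU : U σ = cl l (Set.range S) := by
    have : (fun i j => 2 * ((σ i j : SignType) : ℤ)) = S := funext hσ
    simp only [U, this]
  have hcov := cover hW hl hq (by positivity : 0 ≤ 2 * √n) hk0 (Set.range S) D (fun z hz => by
    obtain ⟨x, -, rfl⟩ := Finset.mem_image.1 hz
    rw [map_sub]
    refine (norm_sub_le _ _).trans ?_
    rw [norm_sv, norm_sv]; linarith) hgood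
  rw [← hU, Finset.image_image] at hcov
  obtain ⟨x1, -, hX2⟩ := exists_fiber X1 ⟨x0, hx01⟩ _ hcov
  have hA := hZX (rsp (U σ)) (X1.filter fun x =>
      ((fun z => pr (rsp (U σ)) (cz z)) ∘ fun x => sv x - sv x0) x =
      ((fun z => pr (rsp (U σ)) (cz z)) ∘ fun x => sv x - sv x0) x1) (fun x hx x' hx' => by
    have := pr_eq_iff.1 ((Finset.mem_filter.1 hx).2.trans (Finset.mem_filter.1 hx').2.symm)
    rw [← map_sub, sub_sub_sub_cancel_right] at this
    exact this)
  have htA : t ≤ A (rsp (U σ)) := by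
    have h1 : NA * NB * 2 ^ t ≤ NA * NB * 2 ^ A (rsp (U σ)) := by
      refine hbig.trans (hX1.trans ?_)
      rw [mul_assoc]
      refine mul_le_mul_of_nonneg_left (hX2.trans (mul_le_mul_of_nonneg_left ?_ hNB.le)) hNA.le
      exact_mod_cast hA
    have h2 := le_of_mul_le_mul_left h1 (by positivity)
    exact (pow_le_pow_iff_right₀ (by norm_num : (1 : ℝ) < 2)).1 h2
  have hZf : Zf σ = fun k => Z0 _ (Fin.castLE htA k) := by simp only [Zf, dif_pos htA]
  have hgZ : GoodZ (Zf σ) := by rw [hZf]; exact goodZ_castLE (hZ0 _) htA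
  obtain ⟨s, hs⟩ := exists_lift (n := n)
  let _ := Fintype.ofFinite G
  obtain ⟨G1, hG1, hcard, hcl⟩ := bohr hn W (Zf σ) (norm_good hgZ) qd (fun k y hli => by
      have h1 := finrank_span_eq_card (elim_li hli)
      rw [span_elim] at h1
      have h2 : rsp W ⊔ Submodule.span ℝ (Set.range fun j => cz (Zf σ (y j))) ≤ rsp (jn (U σ) W') := by
        rw [rsp_jn, hW1, sup_comm]
        refine sup_le_sup_right (Submodule.span_le.2 ?_) _
        rintro _ ⟨j, rfl⟩
        rw [hZf]; exact hZU _ _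
      have h3 := Submodule.finrank_mono h2
      rw [h1, finrank_rsp] at h3
      have h4 := cl_dim (l := l) (Set.range S) (sat_sr _) hSW
      rw [← hU, hW2] at h4
      simp only [Fintype.card_sum, Fintype.card_fin] at h3
      have h5 : (rk W : ℝ) + k ≤ rk (jn (U σ) W') := by exact_mod_cast h3
      have h6 : l * k ≤ l * qd := by nlinarith
      exact_mod_cast le_of_mul_le_mul_left h6 hl) Q hQ
    (G : Set (Fin n → T1)).toFinset ⟨0, by simp [G.zero_mem]⟩ s (fun u hu w hw => by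
      have h1 := hWΛ hw u (by simpa using hu)
      rw [hs, AddCircle.coe_eq_zero_iff] at h1
      obtain ⟨m, hm⟩ := h1
      exact ⟨m, by rw [← hm]; simp⟩)
  refine ⟨Zf σ, Finset.mem_image_of_mem _ (Finset.mem_filter.2 ⟨Finset.mem_univ _, htA⟩), G1,
    fun u hu => by simpa using hG1 hu, ?_, fun u hu u' hu' k => ?_⟩
  · have e : Nat.card G = (G : Set (Fin n → T1)).toFinset.card := by
      rw [Set.toFinset_card, Nat.card_eq_fintype_card]; rfl
    rw [e]
    refine hcard.trans ?_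
    have : H W ≤ Real.exp (2 * g * n) := by
      rw [← Real.exp_log (H_pos W)]; exact Real.exp_le_exp.2 (by linarith)
    gcongr
  · obtain ⟨m, hm⟩ := hcl u hu u' hu' k
    rw [pr_sub_right, hs, hs, ← AddCircle.coe_sub, ← inner_sub_right, UnitAddCircle.norm_eq]
    exact (round_le _ m).trans hm

theorem ev_rpow {a η : ℝ} (C : ℝ) (ha : a < 1) (hη : 0 < η) :
    ∀ᶠ n : ℕ in atTop, C * (n : ℝ) ^ a ≤ η * n := by
  have h1 : Tendsto (fun n : ℕ => C * (n : ℝ) ^ (-(1 - a))) atTop (nhds (C * 0)) :=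
    ((tendsto_rpow_neg_atTop (by linarith)).comp tendsto_natCast_atTop_atTop).const_mul C
  rw [mul_zero] at h1
  filter_upwards [h1.eventually (gt_mem_nhds hη), eventually_ge_atTop 1] with n h hn
  have hn' : (0 : ℝ) < n := by exact_mod_cast hn
  have : (n : ℝ) ^ a = (n : ℝ) ^ (-(1 - a)) * n := by
    rw [← Real.rpow_add_one hn'.ne']; congr 1; ring
  rw [this, ← mul_assoc]
  exact mul_le_mul_of_nonneg_right h.le hn'.le

end SL

theorem stSL (hW : StWRM) (_hHB : StHB) : StSL := by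
  intro ε δ γ K hε hδ hγ hK
  obtain ⟨κ, hκ0, hκ1, hκ2⟩ : ∃ κ : ℝ, 0 < κ ∧ κ ≤ δ / 40 ∧ κ ≤ 1 / 8 :=
    ⟨min (δ / 40) (1 / 8), by positivity, min_le_left _ _, min_le_right _ _⟩
  obtain ⟨g, hg0, hg1, hg2, hg3⟩ : ∃ g : ℝ, 0 < g ∧ g ≤ κ ∧ g ≤ γ / 8 ∧ g ≤ γ * κ / (4 * (K + 3)) :=
    ⟨min κ (min (γ / 8) (γ * κ / (4 * (K + 3)))), by positivity, min_le_left _ _,
      (min_le_right _ _).trans (min_le_left _ _), (min_le_right _ _).trans (min_le_right _ _)⟩
  set k0 := ⌈1 / (4 * κ)⌉₊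
  filter_upwards [eventually_ge_atTop 2,
    SL.ev_rpow 13 (a := 1 - g) (η := ε / 10) (by linarith) (by positivity),
    SL.ev_rpow (k0 * (13 * 2 ^ (k0 ^ 2))) (a := 3 / 4 + κ) (η := ε / 10) (by linarith) (by positivity),
    SL.ev_rpow (26 * √k0) (a := 1 / 2 + κ) (η := ε / 10) (by linarith) (by positivity),
    SL.ev_rpow 2 (a := 0) (η := 2 * δ / 5) (by norm_num) (by positivity),
    SL.ev_rpow (K + 3) (a := 0) (η := γ / 2) (by norm_num) (by positivity)]
    with n hn e1 e2 e3 e4 e5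
  have hn1 : (1 : ℝ) < n := by exact_mod_cast hn
  have hn0 : (0 : ℝ) < n := by linarith
  have hlog : 0 < Real.log n := Real.log_pos hn1
  rw [Real.rpow_zero, mul_one] at e4 e5
  set m0 := ⌊4 * (g + 2 * κ) * n⌋₊ + 1 with hm0
  set qd := ⌈g * n / κ⌉₊ with hqd
  have hqd1 : (qd : ℝ) ≤ g * n / κ + 1 := (Nat.ceil_lt_add_one (by positivity)).le
  have hqd2 : qd ≤ n := Nat.ceil_le.2 (by rw [div_le_iff₀ hκ0]; nlinarith)
  obtain ⟨F, hF1, hF2, hF3⟩ := SL.core (n := n) (t := ⌊ε * n⌋₊) (k0 := k0) (m0 := m0) (qd := qd)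
    (Q := n ^ (⌈K⌉₊ + 1)) hW (by omega) (g := g * Real.log n) (l := κ * Real.log n)
    (q := Real.log n / 4) (by positivity) (by positivity) (by positivity) (by positivity)
    (by
      have : 1 / (4 * κ) ≤ k0 := Nat.le_ceil _
      rw [div_le_iff₀ (by positivity)] at this
      nlinarith)
    (by
      have : 4 * (g + 2 * κ) * n < m0 := by rw [hm0]; push_cast; exact Nat.lt_floor_add_one _
      nlinarith)
    (by
      have : g * n / κ ≤ qd := Nat.le_ceil _
      rw [div_le_iff₀ hκ0] at this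
      nlinarith)
  refine ⟨F, ?_, hF2, fun G hG hbig => ?_⟩
  · have h1 : (F.card : ℝ) ≤ 3 ^ (n * m0) := by exact_mod_cast hF1
    refine h1.trans ?_
    have h3 : (3 : ℝ) ≤ Real.exp 2 := by
      have := Real.add_one_le_exp (2 : ℝ); linarith
    refine (pow_le_pow_left₀ (by norm_num) h3 _).trans ?_
    rw [← Real.exp_nat_mul]
    apply Real.exp_le_exp.2
    have h4 : (m0 : ℝ) ≤ 4 * (g + 2 * κ) * n + 1 := by
      rw [hm0]; push_cast
      have := Nat.floor_le (by positivity : 0 ≤ 4 * (g + 2 * κ) * n)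
      linarith
    have h5 : (m0 : ℝ) ≤ 3 * δ / 10 * n + 1 := by nlinarith
    push_cast
    nlinarith
  · refine (fun hb => ?_) (hF3 G hG (le_trans ?_ hbig))
    · obtain ⟨Z, hZ, G1, h1, h2, h3⟩ := hb
      refine ⟨Z, hZ, G1, h1, h2.trans (mul_le_mul_of_nonneg_right ?_ (Nat.cast_nonneg _)),
        fun u hu u' hu' k => (h3 u hu u' hu' k).trans ?_⟩
      · have hK1 : (⌈K⌉₊ : ℝ) ≤ K + 1 := (Nat.ceil_lt_add_one hK.le).le
        have : (n : ℝ) ^ qd * ((n ^ (⌈K⌉₊ + 1) : ℕ) : ℝ) ^ qd =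
            Real.exp ((qd * (⌈K⌉₊ + 2) : ℕ) * Real.log n) := by
          rw [Real.exp_nat_mul, Real.exp_log hn0]; push_cast; ring
        rw [mul_assoc, this, ← Real.exp_add, Lg]
        apply Real.exp_le_exp.2
        have h4 : g * n / κ * (K + 3) ≤ γ / 4 * n := by
          rw [le_div_iff₀ (by positivity)] at hg3
          rw [div_mul_eq_mul_div, div_le_iff₀ hκ0]
          nlinarith
        have h5 : (qd : ℝ) * (⌈K⌉₊ + 2) ≤ (g * n / κ + 1) * (K + 3) :=
          mul_le_mul hqd1 (by linarith) (by positivity) (by positivity)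
        have h6 : 2 * g * n + (qd : ℝ) * (⌈K⌉₊ + 2) ≤ γ * n := by nlinarith
        push_cast
        nlinarith
      · rw [Real.rpow_neg hn0.le, div_le_iff₀ (by positivity), le_inv_mul_iff₀ (by positivity)]
        push_cast
        rw [pow_succ]
        refine mul_le_mul ?_ (by exact_mod_cast hqd2) (by positivity) (by positivity)
        rw [← Real.rpow_natCast]
        exact Real.rpow_le_rpow_of_exponent_le hn1.le (Nat.le_ceil K)
    · have r1 : ∀ a : ℝ, Real.exp (a * Real.log n) = (n : ℝ) ^ a := fun a => by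
        rw [Real.rpow_def_of_pos hn0, mul_comm]
      have r2 : √(n : ℝ) = (n : ℝ) ^ (1 / 2 : ℝ) := Real.sqrt_eq_rpow _
      have a1 : 13 * √(n : ℝ) * √n / Real.exp (g * Real.log n) = 13 * (n : ℝ) ^ (1 - g) := by
        rw [mul_assoc, Real.mul_self_sqrt hn0.le, r1, Real.rpow_sub hn0, Real.rpow_one]; ring
      have a2 : (k0 : ℝ) * (13 * (2 ^ (k0 ^ 2) * Real.exp (Real.log n / 4)) * √n /
          Real.exp (-(κ * Real.log n))) = k0 * (13 * 2 ^ (k0 ^ 2)) * (n : ℝ) ^ (3 / 4 + κ) := by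
        have : (3 / 4 + κ : ℝ) = 1 / 4 + 1 / 2 + κ := by ring
        rw [Real.exp_neg, div_inv_eq_mul, r1, r2, div_eq_inv_mul (Real.log n), r1, this,
          Real.rpow_add hn0, Real.rpow_add hn0, one_div (4 : ℝ)]; ring
      have a3 : 13 * (2 * √(n : ℝ)) * √k0 / Real.exp (-(κ * Real.log n)) =
          26 * √k0 * (n : ℝ) ^ (1 / 2 + κ) := by
        rw [Real.exp_neg, div_inv_eq_mul, r1, r2, Real.rpow_add hn0]; ring
      have a4 : (2 : ℝ) ^ ⌊ε * n⌋₊ ≤ Real.exp (7 / 10 * (ε * n)) := by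
        rw [← Real.exp_log (by norm_num : (0 : ℝ) < 2), ← Real.exp_nat_mul]
        apply Real.exp_le_exp.2
        have := Nat.floor_le (by positivity : 0 ≤ ε * n)
        have h2 := Real.log_two_lt_d9
        have h3 : (0 : ℝ) ≤ ⌊ε * n⌋₊ := Nat.cast_nonneg _
        nlinarith
      rw [← Real.exp_nat_mul, a1, a2, a3, ← Real.exp_add, ← Real.exp_add]
      refine (mul_le_mul_of_nonneg_left a4 (Real.exp_pos _).le).trans ?_
      rw [← Real.exp_add]
      apply Real.exp_le_exp.2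
      linarith

end Crest.Agent.R152
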